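import Vale.Agent.P339.R2.H744.CN2
import Vale.Agent.P339.R2.H206.Lst

/-! P339: the bound for the linear test on the tables of the second kind. -/

namespace Vale.Agent.P339.R2.H95

open Finset Vale.Agent.Lib.PCP Vale.Agent.Lib.PCP.HA Vale.Agent.P339.H283 Vale.Agent.P339.H937
  Vale.Agent.P339.R2.H375

variable {l k nA : ℕ}

lemma mc_nonneg (R : (Fin k × Fin nA → K l) → K l × ZMod 2) (j : Fin k)
    (w : Fin nA → ZMod 2) (θ0 θ1 : K l) (β : ZMod 2)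
    (h : (Fin k × Fin nA → ZMod 2) × K l) : 0 ≤ mc R j w θ0 θ1 β h :=
  avg_nonneg fun _ => ind_nonneg _

lemma lineZ2_nonneg (R : (Fin k × Fin nA → K l) → K l × ZMod 2) (j : Fin k)
    (w : Fin nA → ZMod 2) (θ0 θ1 : K l)
    (H : ZMod 2 → Finset ((Fin k × Fin nA → ZMod 2) × K l)) (M : Fin k × Fin nA → K l)
    (y : Fin k × Fin nA → ZMod 2) : 0 ≤ lineZ2 R j w θ0 θ1 H M y :=
  Finset.sum_nonneg fun β _ => by
    obtain ⟨p1, p2, p3⟩ := lineZ2_part_nonneg R j w θ0 θ1 H M y β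
    exact add_nonneg (add_nonneg p1 p2) p3

lemma sum_sq_le_sq {ι : Type} (S : Finset ι) (f : ι → ℝ) (hf : ∀ i ∈ S, 0 ≤ f i) :
    ∑ i ∈ S, f i ^ 2 ≤ (∑ i ∈ S, f i) ^ 2 := by
  rw [sq, Finset.sum_mul_sum]
  refine Finset.sum_le_sum fun i hi => ?_
  rw [sq]
  exact Finset.single_le_sum (f := fun j => f i * f j)
    (fun j hj => mul_nonneg (hf i hi) (hf j hj)) hi

lemma sum2_sq_le {f : ZMod 2 → ℝ} (hf : ∀ β, 0 ≤ f β) : ∑ β, f β ^ 2 ≤ (∑ β, f β) ^ 2 :=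
  sum_sq_le_sq Finset.univ f fun β _ => hf β

/-- The final inequality. -/
lemma poly_le {κ P Q r δ τ E : ℝ} (hκ : κ ^ 2 = 1 / 2) (hκ1 : 1 / 2 ≤ κ) (hκ2 : κ ≤ 3 / 4)
    (hP : 0 ≤ P) (hQ : 0 ≤ Q) (hr : 0 ≤ r) (hδ0 : 0 ≤ δ) (hδ1 : δ ≤ 1)
    (hsum : r + P + Q ≤ 1 + δ) (hτ : τ = P + 1 / 2 * Q)
    (hE : E ≤ 1 / 2 * r + (1 / 2 * P + 1 / 2 * P ^ 2) + ((1 / 4 + κ / 2) * Q + 1 / 8 * Q ^ 2)) :
    E ≤ (κ + (1 - κ) * τ) ^ 2 + 4 * δ := by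
  have hPδ : P ≤ 1 + δ := by linarith
  have hQδ : Q ≤ 1 + δ := by linarith
  have e1 : (κ + (1 - κ) * τ) ^ 2 = (1 / 2 + 1 / 2 * P ^ 2 + (κ / 2 - 1 / 4) * Q +
      1 / 8 * Q ^ 2) + ((2 * κ - 1) * (P * (1 - P)) + (κ / 2 - 1 / 4) * (Q * (1 - Q)) +
      (1 - κ) ^ 2 * (P * Q)) := by
    rw [hτ]
    linear_combination ((1 - (P + 1 / 2 * Q)) ^ 2 - P * Q) * hκ
  have h1 : -(2 * δ) ≤ P * (1 - P) := by nlinarith
  have h2 : -(2 * δ) ≤ Q * (1 - Q) := by nlinarith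
  have h3 : 0 ≤ (1 - κ) ^ 2 * (P * Q) := by positivity
  have h4 : -(2 * δ) * (2 * κ - 1) ≤ (2 * κ - 1) * (P * (1 - P)) := by nlinarith
  have h5 : -(2 * δ) * (κ / 2 - 1 / 4) ≤ (κ / 2 - 1 / 4) * (Q * (1 - Q)) := by nlinarith
  nlinarith

/-- **The bound for the linear test on the tables of the second kind.** -/
theorem vCN_le' {R : (Fin k × Fin nA → K l) → K l × ZMod 2} {j : Fin k}
    {w : Fin nA → ZMod 2} {θ0 θ1 : K l} (h0 : θ0 ≠ 0) (h1 : θ1 ≠ 0) (h01 : θ0 ≠ θ1)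
    (hR : ∀ u M, R (M + dis j w u θ0 θ1) = R M)
    {H : ZMod 2 → Finset ((Fin k × Fin nA → ZMod 2) × K l)} {c ρ δ : ℝ} (hc : 0 < c)
    (hcl : 1 / 2 ^ l ≤ c) (hL : IsL R j w θ0 θ1 H c) (hρ0 : 0 ≤ ρ)
    (hρ : c ^ 2 + 14 / 2 ^ l ≤ ρ ^ 4) (hδ : 8 * (1 / c) ^ 2 / 2 ^ l ≤ δ) (hδ1 : δ ≤ 1)
    (L : (Fin k × Fin nA → K l) → (Fin k × Fin nA → ZMod 2) → (K l × ZMod 2) × ZMod 2) :
    vCN R θ0 θ1 L ≤ Real.sqrt (1 / 2) +
      (1 - Real.sqrt (1 / 2)) * (Pm1 R j w θ0 θ1 H + 1 / 2 * Qm1 R j w θ0 θ1 H) +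
      (Real.sqrt (8 / 2 ^ l + 2 * ρ + 4 * δ) + 4 * (1 / c) / 2 ^ l) := by
  have hδ0 : 0 ≤ δ := le_trans (by positivity) hδ
  have hpow : (0 : ℝ) < 2 ^ l := by positivity
  have hκ : Real.sqrt (1 / 2) ^ 2 = 1 / 2 := Real.sq_sqrt (by norm_num)
  have hκ1 : 1 / 2 ≤ Real.sqrt (1 / 2) := by
    refine Real.le_sqrt_of_sq_le ?_
    norm_num
  have hκ2 : Real.sqrt (1 / 2) ≤ 3 / 4 := by
    rw [Real.sqrt_le_left (by norm_num)]
    norm_num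
  have hS := Vale.Agent.P339.R2.H744.avg_lineZ2_le h0 h1 h01 hR hcl hL hρ0 hρ
  have hM := Vale.Agent.P339.R2.H206.sum_mass_le R j w θ0 θ1 hc hL
  have hP0 : 0 ≤ Pm1 R j w θ0 θ1 H := Finset.sum_nonneg fun _ _ => Finset.sum_nonneg fun _ _ =>
    mc_nonneg _ _ _ _ _ _ _
  have hQ0 : 0 ≤ Qm1 R j w θ0 θ1 H := Finset.sum_nonneg fun _ _ => Finset.sum_nonneg fun _ _ =>
    mc_nonneg _ _ _ _ _ _ _
  have hr0 : 0 ≤ ∑ β, avg (rs R j w θ0 θ1 (H β) β) := Finset.sum_nonneg fun _ _ =>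
    avg_nonneg fun _ => ind_nonneg _
  set κ := Real.sqrt (1 / 2) with hκd
  set r := ∑ β, avg (rs R j w θ0 θ1 (H β) β) with hrd
  -- the sums of squares
  have hPs : ∑ β : ZMod 2, ∑ h ∈ (H β).filter (fun h => Con j w β h.1),
      mc R j w θ0 θ1 β h ^ 2 ≤ Pm1 R j w θ0 θ1 H ^ 2 := by
    unfold Pm1
    refine (Finset.sum_le_sum fun β _ => sum_sq_le_sq _ _ fun h _ => mc_nonneg _ _ _ _ _ _ _).trans
      (sum2_sq_le fun β => Finset.sum_nonneg fun _ _ => mc_nonneg _ _ _ _ _ _ _)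
  have hQs : ∑ β : ZMod 2, ∑ h ∈ (H β).filter (fun h => ¬ Con j w β h.1),
      mc R j w θ0 θ1 β h ^ 2 ≤ Qm1 R j w θ0 θ1 H ^ 2 := by
    unfold Qm1
    refine (Finset.sum_le_sum fun β _ => sum_sq_le_sq _ _ fun h _ => mc_nonneg _ _ _ _ _ _ _).trans
      (sum2_sq_le fun β => Finset.sum_nonneg fun _ _ => mc_nonneg _ _ _ _ _ _ _)
  have hcard2 : ∑ _β : ZMod 2, ρ = 2 * ρ := by
    rw [Finset.sum_const, Finset.card_univ, ZMod.card, nsmul_eq_mul]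
    norm_num
  have hS2 : (avg fun y : Fin k × Fin nA → ZMod 2 => avg fun M : Fin k × Fin nA → K l =>
      lineZ2 R j w θ0 θ1 H M y) ≤ (1 / 2 * r + (1 / 2 * Pm1 R j w θ0 θ1 H +
        1 / 2 * Pm1 R j w θ0 θ1 H ^ 2) + ((1 / 4 + κ / 2) * Qm1 R j w θ0 θ1 H +
        1 / 8 * Qm1 R j w θ0 θ1 H ^ 2)) + (8 / 2 ^ l + 2 * ρ) := by
    refine hS.trans ?_
    rw [Finset.sum_add_distrib, Finset.sum_add_distrib, Finset.sum_add_distrib, hcard2,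
      ← Finset.mul_sum, ← hrd]
    simp only [Finset.sum_add_distrib, ← Finset.mul_sum]
    have e1 : ∑ β : ZMod 2, ∑ h ∈ (H β).filter (fun h => Con j w β h.1), mc R j w θ0 θ1 β h =
        Pm1 R j w θ0 θ1 H := rfl
    have e2 : ∑ β : ZMod 2, ∑ h ∈ (H β).filter (fun h => ¬ Con j w β h.1),
        mc R j w θ0 θ1 β h = Qm1 R j w θ0 θ1 H := rfl
    rw [e1, e2]
    have h8 : 8 / 2 ^ l = 4 / 2 ^ l * (2 : ℝ) := by ring
    have h4 : 4 / 2 ^ l * r ≤ 4 / 2 ^ l * 2 :=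
      mul_le_mul_of_nonneg_left (by linarith) (by positivity)
    rw [h8]
    linarith
  have hE := poly_le (κ := κ) (δ := δ) (τ := Pm1 R j w θ0 θ1 H + 1 / 2 * Qm1 R j w θ0 θ1 H)
    hκ hκ1 hκ2 hP0 hQ0 hr0 hδ0 hδ1 (by linarith) rfl le_rfl
  set τ := Pm1 R j w θ0 θ1 H + 1 / 2 * Qm1 R j w θ0 θ1 H with hτ
  have hτ0 : 0 ≤ τ := by positivity
  have ha0 : 0 ≤ κ + (1 - κ) * τ := by
    have : 0 ≤ (1 - κ) * τ := mul_nonneg (by linarith) hτ0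
    linarith
  -- the average over the lines
  have h2 : vCN R θ0 θ1 L ≤ (avg fun y : Fin k × Fin nA → ZMod 2 =>
      avg fun M : Fin k × Fin nA → K l => Real.sqrt (lineZ2 R j w θ0 θ1 H M y)) +
      4 * (1 / c) / 2 ^ l := by
    unfold vCN
    have e1 : ∀ (y : Fin k × Fin nA → ZMod 2) (M : Fin k × Fin nA → K l), (avg fun φ : K l =>
        ind (SatN ((L M y).1.1 + (L M y).2 • φ, (L M y).1.2) (R (M + tns y φ)) θ0 θ1)) ≤
        Real.sqrt (lineZ2 R j w θ0 θ1 H M y) + 4 * (1 / c) / 2 ^ l := fun y M =>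
      line_le h0 h1 h01 hc hL.1 M y (L M y).1.1 (L M y).1.2 (L M y).2
    have e2 : (avg fun y : Fin k × Fin nA → ZMod 2 => avg fun M : Fin k × Fin nA → K l =>
        (Real.sqrt (lineZ2 R j w θ0 θ1 H M y) + 4 * (1 / c) / 2 ^ l)) =
        (avg fun y : Fin k × Fin nA → ZMod 2 => avg fun M : Fin k × Fin nA → K l =>
          Real.sqrt (lineZ2 R j w θ0 θ1 H M y)) + 4 * (1 / c) / 2 ^ l := by
      rw [avg_congr fun y => avg_add _ _, avg_add]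
      congr 1
      rw [avg_congr fun y => avg_const _, avg_const]
    exact (avg_mono fun y => avg_mono fun M => e1 y M).trans (le_of_eq e2)
  have h3 : (avg fun y : Fin k × Fin nA → ZMod 2 => avg fun M : Fin k × Fin nA → K l =>
      Real.sqrt (lineZ2 R j w θ0 θ1 H M y)) ≤
      Real.sqrt (avg fun y : Fin k × Fin nA → ZMod 2 => avg fun M : Fin k × Fin nA → K l =>
        lineZ2 R j w θ0 θ1 H M y) := by
    refine Real.le_sqrt_of_sq_le ?_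
    refine (avg_sq_le _).trans (avg_mono fun y => (avg_sq_le _).trans (le_of_eq ?_))
    exact avg_congr fun M => Real.sq_sqrt (lineZ2_nonneg _ _ _ _ _ _ _ _)
  have h4 : Real.sqrt (avg fun y : Fin k × Fin nA → ZMod 2 =>
      avg fun M : Fin k × Fin nA → K l => lineZ2 R j w θ0 θ1 H M y) ≤
      (κ + (1 - κ) * τ) + Real.sqrt (8 / 2 ^ l + 2 * ρ + 4 * δ) := by
    have e1 : (avg fun y : Fin k × Fin nA → ZMod 2 =>
      avg fun M : Fin k × Fin nA → K l => lineZ2 R j w θ0 θ1 H M y) ≤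
      (κ + (1 - κ) * τ) ^ 2 + (8 / 2 ^ l + 2 * ρ + 4 * δ) := by linarith
    refine (Real.sqrt_le_sqrt e1).trans ?_
    refine (sqrt_add_le' (sq_nonneg _) (by positivity)).trans ?_
    rw [Real.sqrt_sq ha0]
  linarith

end Vale.Agent.P339.R2.H95
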