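import Vale.Agent.P339.R2.H95.CN3
import Vale.Agent.P339.R2.H95.Main2
import Vale.Agent.P339.R2.H376.Inner

/-!
P339: the assembly of the modules.
-/

namespace Vale.Agent.P339.R2.H95

open Finset Vale.Agent.Lib.PCP Vale.Agent.Lib.PCP.HA Vale.Agent.P339.H283 Vale.Agent.P339.H937
  Vale.Agent.P339.R2.H375 Vale.Agent.P339.R2.H376

/-- The inner estimate. -/
theorem inner2_all (l k nA : ℕ) (hl : 0 < l) (_ : NeZero k) : Inner2 l k nA := by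
  intro G l1 r1 hr lC c d c1 ρ δ WC WA K0 h1 h2 h3 h4 h5 h6 h7 h8 h9 h10 h11
  refine inner2_of hl (fun R j w θ0 θ1 c hc => Vale.Agent.P339.R2.H206.exists_IsL R j w θ0 θ1 hc)
    ?_ ?_ ?_ G l1 r1 hr lC h1 h2 h3 h4 h5 h6 h7 h8 h9 h10 h11
  · exact fun R j w θ0 θ1 H c hc hL => Vale.Agent.P339.R2.H206.sum_mass_le R j w θ0 θ1 hc hL
  · exact fun R j w θ0 θ1 a1 a2 a3 a4 H c ρ δ a5 a6 a7 a8 a9 a10 a11 L =>
      vCN_le' a1 a2 a3 a4 a5 a6 a7 a8 a9 a10 a11 L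
  · exact fun R j w θ0 θ1 a1 a2 a3 H c d a4 a5 G HG a6 a7 a8 a9 a10 L =>
      Vale.Agent.P339.R2.H620.vAN_le a1 a2 a3 a4 a5 a6 a7 a8 a9 a10 L

/-- **NP-hardness of `Gap_q(1, s)` for every `s > (10 + √2) / 14`.** -/
theorem gapHard2 {s : ℝ} (hs : (10 + Real.sqrt 2) / 14 < s) : ∃ q : ℕ, 2 ≤ q ∧ GapHard q 1 s :=
  gapHard2_of inner2_all hs

theorem sStar_le2 : sStar ≤ (10 + Real.sqrt 2) / 14 := sStar_le2_of inner2_all

end Vale.Agent.P339.R2.H95
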