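import Vale.Agent.P339.R2.H375.Defs

/-!
P339: the game with the linear test on the right vertices of the second kind.
-/

namespace Vale.Agent.P339.R2.H95

open Finset Vale.Agent.Lib.PCP Vale.Agent.Lib.PCP.HA Vale.Agent.P339.H283
  Vale.Agent.Lib.PolyTime Vale.Agent.P333.NP Vale.Agent.P339.H937 Vale.Agent.P339.R2.H375

section maps

variable {l : ℕ}

lemma Phi_translate (hl : 0 < l) (θ0 θ1 c : K l) {m m' : K l} {β β' : ZMod 2}
    (h : Phi θ0 θ1 (m, β) = Phi θ0 θ1 (m', β')) :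
    Phi θ0 θ1 (m + c, β) = Phi θ0 θ1 (m' + c, β') := by
  refine ((Phi_orb hl θ0 θ1).1 _ _).2 ?_
  rcases ((Phi_orb hl θ0 θ1).1 _ _).1 h with h1 | h1
  · left
    obtain ⟨h2, h3⟩ := Prod.ext_iff.1 h1
    dsimp only at h2 h3
    rw [h2, h3]
  · right
    unfold inv2 at h1 ⊢
    obtain ⟨h2, h3⟩ := Prod.ext_iff.1 h1
    dsimp only at h2 h3 ⊢
    rw [h2, h3]
    refine Prod.ext ?_ rfl
    dsimp only
    abel

/-- The map of a line of the second kind. -/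
noncomputable def cnf (θ0 θ1 φ : K l) (x : K l × ZMod 2) : Fin (2 ^ l) :=
  Phi θ0 θ1 ((pre θ0 θ1 (eR l x.1)).1 + x.2 • φ, (pre θ0 θ1 (eR l x.1)).2)

lemma cnf_two (hl : 0 < l) (θ0 θ1 φ : K l) (b : Fin (2 ^ l)) :
    (univ.filter fun x => cnf θ0 θ1 φ x = b).card = 2 := by
  have h1 : (univ.filter fun x => cnf θ0 θ1 φ x = b) =
      (univ : Finset (ZMod 2)).image fun z =>
        ((eR l).symm (Phi θ0 θ1 ((pre θ0 θ1 b).1 + z • φ, (pre θ0 θ1 b).2)), z) := by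
    ext ⟨x, z⟩
    rw [Finset.mem_filter, Finset.mem_image]
    unfold cnf
    dsimp only
    constructor
    · rintro ⟨_, h⟩
      refine ⟨z, Finset.mem_univ _, ?_⟩
      refine Prod.ext ?_ rfl
      dsimp only
      rw [Equiv.symm_apply_eq, ← Phi_pre hl θ0 θ1 (eR l x)]
      have h2 : Phi θ0 θ1 ((pre θ0 θ1 b).1, (pre θ0 θ1 b).2) =
          Phi θ0 θ1 ((pre θ0 θ1 (eR l x)).1 + z • φ, (pre θ0 θ1 (eR l x)).2) := by
        rw [h]
        exact Phi_pre hl θ0 θ1 b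
      have h3 := Phi_translate hl θ0 θ1 (z • φ) h2
      rw [h3, add_assoc, K_add_self, add_zero]
    · rintro ⟨z', _, h⟩
      obtain ⟨h1, h2⟩ := Prod.ext_iff.1 h
      dsimp only at h1 h2
      subst h2
      refine ⟨Finset.mem_univ _, ?_⟩
      rw [Equiv.symm_apply_eq] at h1
      have h2 : Phi θ0 θ1 ((pre θ0 θ1 (eR l x)).1, (pre θ0 θ1 (eR l x)).2) =
          Phi θ0 θ1 ((pre θ0 θ1 b).1 + z' • φ, (pre θ0 θ1 b).2) := by
        rw [h1]
        exact Phi_pre hl θ0 θ1 _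
      have h3 := Phi_translate hl θ0 θ1 (z' • φ) h2
      rw [h3, add_assoc, K_add_self, add_zero]
      exact Phi_pre hl θ0 θ1 b
  rw [h1, Finset.card_image_of_injective]
  · rfl
  · intro z z' h
    exact (Prod.ext_iff.1 h).2

end maps

section

variable {nA nB k l : ℕ}

/-- Left vertices. -/
abbrev LV2 (nA nB k l : ℕ) : Type :=
  ((Fin k → Cs nA nB) × Fin k × (Fin nA → ZMod 2) × (Fin k × Fin nA → K l)) ⊕
    ((Fin k → Cs nA nB) × Fin k × (Fin nA → ZMod 2) × K l × K l ×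
      (Fin k × Fin nA → K l) × (Fin k × Fin nA → ZMod 2))

/-- The name of a left vertex. -/
noncomputable def nmL2 (x : LV2 nA nB k l) : ℕ := wcode (enc x)

lemma nmL2_inj : Function.Injective (nmL2 : LV2 nA nB k l → ℕ) := fun _ _ h =>
  EncInj.inj (wcode_inj h)

variable [NeZero nA] [NeZero nB]

/-- The constraint of a line. -/
noncomputable def lnC2 (x : LV2 nA nB k l) (e : Fin k → Cs nA nB) (N : Fin k × Fin nA → K l)
    (φ : K l) (W : ℕ) : Constraint (2 ^ l) := ⟨nmL2 x, nmR (r0 e N), mkM (lin φ (off e N)), W⟩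

/-- The constraint of the second local test. -/
noncomputable def loC2 (e : Fin k → Cs nA nB) (j : Fin k) (w : Fin nA → ZMod 2) (θ0 θ1 : K l)
    (M : Fin k × Fin nA → K l) (W : ℕ) : Constraint (2 ^ l) :=
  ⟨nmL2 (Sum.inl (e, j, w, M) : LV2 nA nB k l),
    nmR (Sum.inr (e, j, w, θ0, θ1, red j w θ0 θ1 M) : RV nA nB k l), mkM (Phi θ0 θ1), W⟩

/-- The constraint of a line of the second kind. -/
noncomputable def cnC (e : Fin k → Cs nA nB) (j : Fin k) (w : Fin nA → ZMod 2) (θ0 θ1 : K l)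
    (M : Fin k × Fin nA → K l) (y : Fin k × Fin nA → ZMod 2) (φ : K l) (W : ℕ) :
    Constraint (2 ^ l) :=
  ⟨nmL2 (Sum.inr (e, j, w, θ0, θ1, M, y) : LV2 nA nB k l),
    nmR (Sum.inr (e, j, w, θ0, θ1, red j w θ0 θ1 (M + tns y φ)) : RV nA nB k l),
    mkM (cnf θ0 θ1 φ), W⟩

/-- The three constraints of a choice of the parameters. -/
noncomputable def trip2 (WC WA : ℕ) (e : Fin k → Cs nA nB) :
    Pm nA k l → List (Constraint (2 ^ l)) := fun (j, w, θ0, θ1, y, M, φ) =>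
  [cnC e j w θ0 θ1 M y φ WC,
    lnC2 (Sum.inl (e, j, w, M)) e (M + tns (atb j w) φ) φ WA,
    loC2 e j w θ0 θ1 M WA]

/-- The constraints of the game. -/
noncomputable def gm2 (k l WC WA : ℕ) (E : PG ℕ ℕ (Fin nA) (Fin nB)) :
    List (Constraint (2 ^ l)) :=
  (tup E k).flatMap fun e => (Finset.univ : Finset (Pm nA k l)).toList.flatMap (trip2 WC WA e)

lemma gm2_two (hl : 0 < l) (WC WA : ℕ) (E : PG ℕ ℕ (Fin nA) (Fin nB)) :
    ∀ c ∈ gm2 k l WC WA E, ∀ b : Fin (2 ^ l),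
      (Finset.univ.filter fun a => c.π a = b).card = 2 := by
  intro c hc b
  unfold gm2 at hc
  rw [List.mem_flatMap] at hc
  obtain ⟨e, _, hc⟩ := hc
  rw [List.mem_flatMap] at hc
  obtain ⟨⟨j, w, θ0, θ1, y, M, φ⟩, _, hc⟩ := hc
  unfold trip2 at hc
  simp only [List.mem_cons, List.not_mem_nil, or_false] at hc
  rcases hc with rfl | rfl | rfl
  · exact mkM_two (cnf_two hl _ _ _) b
  · exact mkM_two (lin_two _ _) b
  · exact mkM_two (Phi_orb hl θ0 θ1).2 b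

lemma ls_gm2 (WC WA : ℕ) (E : PG ℕ ℕ (Fin nA) (Fin nB)) (ψ : Constraint (2 ^ l) → ℝ) :
    ls (gm2 k l WC WA E) ψ = ls (tup E k) fun e => ∑ p : Pm nA k l, ls (trip2 WC WA e p) ψ := by
  unfold gm2
  rw [ls_flatMap]
  refine ls_congr fun e _ => ?_
  rw [ls_flatMap, ls_toList]

lemma ls_trip2_w (WC WA : ℕ) (e : Fin k → Cs nA nB) (p : Pm nA k l) :
    (ls (trip2 WC WA e p) fun c => (c.w : ℝ)) = WC + 2 * WA := by
  obtain ⟨j, w, θ0, θ1, y, M, φ⟩ := p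
  unfold trip2 lnC2 loC2 cnC
  simp only [ls_cons, ls_nil]
  ring

lemma gm2_weight (WC WA : ℕ) (E : PG ℕ ℕ (Fin nA) (Fin nB)) :
    (weight (gm2 k l WC WA E) : ℝ) =
      (tup E k).length * (Fintype.card (Pm nA k l) * (WC + 2 * WA)) := by
  rw [weight_real, ls_gm2]
  simp only [ls_trip2_w]
  rw [ls_const, Finset.sum_const, Finset.card_univ, nsmul_eq_mul]

lemma gm2_pos [NeZero k] {WC WA : ℕ} (hW : 0 < WC) {E : PG ℕ ℕ (Fin nA) (Fin nB)}
    (hE : E ≠ []) : 0 < weight (gm2 k l WC WA E) := by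
  have h1 := gm2_weight (k := k) (l := l) WC WA E
  rw [tup_length] at h1
  have h2 : (0 : ℝ) < E.length := by
    have := List.length_pos_iff.2 hE
    exact_mod_cast this
  have h3 : (0 : ℝ) < Fintype.card (Pm nA k l) := by
    have : Nonempty (Fin k) := ⟨0⟩
    have : 0 < Fintype.card (Pm nA k l) := Fintype.card_pos
    exact_mod_cast this
  have h4 : (0 : ℝ) < WC := by exact_mod_cast hW
  have h5 : (0 : ℝ) < weight (gm2 k l WC WA E) := by
    rw [h1]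
    positivity
  exact_mod_cast h5

/-! ### Soundness -/

/-- The left labels. -/
noncomputable def lA2 (A : ℕ → Fin (2 * 2 ^ l)) (x : LV2 nA nB k l) : K l × ZMod 2 :=
  (eL l).symm (A (nmL2 x))

lemma satc_lnC2 {A : ℕ → Fin (2 * 2 ^ l)} {B : ℕ → Fin (2 ^ l)} {x : LV2 nA nB k l}
    {e : Fin k → Cs nA nB} {N : Fin k × Fin nA → K l} {φ : K l} {W : ℕ} :
    satc A B (lnC2 x e N φ W) ↔ tG B e N = (lA2 A x).1 + (lA2 A x).2 • φ := by
  unfold satc lnC2 mkM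
  exact lin_eq_iff

omit [NeZero nA] [NeZero nB] in
lemma satc_loC2 (hl : 0 < l) {A : ℕ → Fin (2 * 2 ^ l)} {B : ℕ → Fin (2 ^ l)}
    {e : Fin k → Cs nA nB} {j : Fin k} {w : Fin nA → ZMod 2} {θ0 θ1 : K l}
    {M : Fin k × Fin nA → K l} {W : ℕ} (h : satc A B (loC2 e j w θ0 θ1 M W)) :
    SatN (lA2 A (Sum.inl (e, j, w, M) : LV2 nA nB k l)) (r1B B e j w θ0 θ1 M)
      (nz θ0) (nz θ1) :=
  satN_of_Phi hl h

/-- The left labels of the lines of the second kind. -/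
noncomputable def lC2 (A : ℕ → Fin (2 * 2 ^ l)) (e : Fin k → Cs nA nB) (j : Fin k)
    (w : Fin nA → ZMod 2) (θ0 θ1 : K l) (M : Fin k × Fin nA → K l)
    (y : Fin k × Fin nA → ZMod 2) : (K l × ZMod 2) × ZMod 2 :=
  (pre θ0 θ1 (eR l (lA2 A (Sum.inr (e, j, w, θ0, θ1, M, y) : LV2 nA nB k l)).1),
    (lA2 A (Sum.inr (e, j, w, θ0, θ1, M, y) : LV2 nA nB k l)).2)

omit [NeZero nA] [NeZero nB] in
lemma satc_cnC (hl : 0 < l) {A : ℕ → Fin (2 * 2 ^ l)} {B : ℕ → Fin (2 ^ l)}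
    {e : Fin k → Cs nA nB} {j : Fin k} {w : Fin nA → ZMod 2} {θ0 θ1 : K l}
    {M : Fin k × Fin nA → K l} {y : Fin k × Fin nA → ZMod 2} {φ : K l} {W : ℕ}
    (h : satc A B (cnC e j w θ0 θ1 M y φ W)) :
    SatN ((lC2 A e j w θ0 θ1 M y).1.1 + (lC2 A e j w θ0 θ1 M y).2 • φ,
      (lC2 A e j w θ0 θ1 M y).1.2) (r1B B e j w θ0 θ1 (M + tns y φ)) (nz θ0) (nz θ1) :=
  satN_of_Phi hl h

/-- The value of the tests of a tuple. -/
lemma sum_trip2_le (hl : 0 < l) [NeZero k] (WC WA : ℕ) (e : Fin k → Cs nA nB)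
    (A : ℕ → Fin (2 * 2 ^ l)) (B : ℕ → Fin (2 ^ l)) :
    (∑ p : Pm nA k l, ls (trip2 WC WA e p) fun c => if satc A B c then (c.w : ℝ) else 0) ≤
      Fintype.card (Pm nA k l) * (WC * valCN (r1B B e) (lC2 A e) +
        WA * (valA (tG B e) (fun j w M => lA2 A (Sum.inl (e, j, w, M))) +
        valN (fun j w M => lA2 A (Sum.inl (e, j, w, M))) (r1B B e))) := by
  have hne : Nonempty (Fin k) := ⟨0⟩
  rw [sum_idx_eq_avg]
  refine mul_le_mul_of_nonneg_left ?_ (Nat.cast_nonneg _)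
  have h1 : ∀ (j : Fin k) (w : Fin nA → ZMod 2) (θ0 θ1 : K l) (y : Fin k × Fin nA → ZMod 2)
      (M : Fin k × Fin nA → K l) (φ : K l),
      (ls (trip2 WC WA e (j, w, θ0, θ1, y, M, φ)) fun c =>
        if satc A B c then (c.w : ℝ) else 0) ≤
      WC * ind (SatN ((lC2 A e j w θ0 θ1 M y).1.1 + (lC2 A e j w θ0 θ1 M y).2 • φ,
        (lC2 A e j w θ0 θ1 M y).1.2) (r1B B e j w θ0 θ1 (M + tns y φ)) (nz θ0) (nz θ1)) +
      (WA * ind (tG B e (M + tns (atb j w) φ) = (lA2 A (Sum.inl (e, j, w, M))).1 +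
        (lA2 A (Sum.inl (e, j, w, M))).2 • φ) +
      WA * ind (SatN (lA2 A (Sum.inl (e, j, w, M))) (r1B B e j w θ0 θ1 M)
        (nz θ0) (nz θ1))) := by
    intro j w θ0 θ1 y M φ
    unfold trip2
    simp only [ls_cons, ls_nil]
    rw [add_zero]
    refine add_le_add ?_ (add_le_add ?_ ?_)
    · by_cases h : satc A B (cnC e j w θ0 θ1 M y φ WC)
      · rw [if_pos h, ind_true (satc_cnC hl h), mul_one]
        rfl
      · rw [if_neg h]
        exact mul_nonneg (Nat.cast_nonneg _) (ind_nonneg _)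
    · by_cases h : satc A B (lnC2 (Sum.inl (e, j, w, M)) e (M + tns (atb j w) φ) φ WA)
      · rw [if_pos h, ind_true (satc_lnC2.1 h), mul_one]
        rfl
      · rw [if_neg h]
        exact mul_nonneg (Nat.cast_nonneg _) (ind_nonneg _)
    · by_cases h : satc A B (loC2 e j w θ0 θ1 M WA)
      · rw [if_pos h, ind_true (satc_loC2 hl h), mul_one]
        rfl
      · rw [if_neg h]
        exact mul_nonneg (Nat.cast_nonneg _) (ind_nonneg _)
  have h2 := avg_mono fun p : Pm nA k l => h1 p.1 p.2.1 p.2.2.1 p.2.2.2.1 p.2.2.2.2.1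
    p.2.2.2.2.2.1 p.2.2.2.2.2.2
  refine h2.trans (le_of_eq ?_)
  have e1 := avg_Pm fun (j : Fin k) (w : Fin nA → ZMod 2) (θ0 θ1 : K l)
    (y : Fin k × Fin nA → ZMod 2) (M : Fin k × Fin nA → K l) (φ : K l) =>
    ind (SatN ((lC2 A e j w θ0 θ1 M y).1.1 + (lC2 A e j w θ0 θ1 M y).2 • φ,
        (lC2 A e j w θ0 θ1 M y).1.2) (r1B B e j w θ0 θ1 (M + tns y φ)) (nz θ0) (nz θ1))
  have e2 := avg_Pm fun (j : Fin k) (w : Fin nA → ZMod 2) (_ _ : K l)
    (_ : Fin k × Fin nA → ZMod 2) (M : Fin k × Fin nA → K l) (φ : K l) =>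
    ind (tG B e (M + tns (atb j w) φ) = (lA2 A (Sum.inl (e, j, w, M))).1 +
        (lA2 A (Sum.inl (e, j, w, M))).2 • φ)
  have e3 := avg_Pm fun (j : Fin k) (w : Fin nA → ZMod 2) (θ0 θ1 : K l)
    (_ : Fin k × Fin nA → ZMod 2) (M : Fin k × Fin nA → K l) (_ : K l) =>
    ind (SatN (lA2 A (Sum.inl (e, j, w, M))) (r1B B e j w θ0 θ1 M) (nz θ0) (nz θ1))
  simp only [avg_const] at e2 e3
  rw [avg_add, avg_add, avg_const_mul, avg_const_mul, avg_const_mul, e1, e2, e3]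
  unfold valCN vCN valA valN
  ring

end

end Vale.Agent.P339.R2.H95
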