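import Vale.Agent.P339.R2.H95.Game2

/-!
P339: soundness, completeness and polynomial time of the game with the linear test on the right
vertices of the second kind.
-/

namespace Vale.Agent.P339.R2.H95

open Finset Vale.Agent.Lib.PCP Vale.Agent.Lib.PCP.HA Vale.Agent.P339.H283
  Vale.Agent.Lib.PolyTime Vale.Agent.P333.NP Vale.Agent.P339.H937 Vale.Agent.P339.R2.H375

/-- The bound of the module INNER, for the parameters `(l, k, nA)`. -/
def Inner2 (l k nA : ℕ) : Prop :=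
  ∀ (G : (Fin k × Fin nA → K l) → K l)
    (l1 : Fin k → (Fin nA → ZMod 2) → (Fin k × Fin nA → K l) → K l × ZMod 2)
    (r1 : Fin k → (Fin nA → ZMod 2) → K l → K l → (Fin k × Fin nA → K l) → K l × ZMod 2)
    (_ : ∀ j w θ0 θ1 u M, r1 j w θ0 θ1 (M + dis j w u (nz θ0) (nz θ1)) = r1 j w θ0 θ1 M)
    (lC : Fin k → (Fin nA → ZMod 2) → K l → K l → (Fin k × Fin nA → K l) →
      (Fin k × Fin nA → ZMod 2) → (K l × ZMod 2) × ZMod 2)
    (c d c1 ρ δ WC WA : ℝ) (K0 : ℕ) (_ : 0 < c) (_ : 1 / 2 ^ l ≤ c) (_ : 0 < d)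
    (_ : 0 ≤ c1) (_ : 0 ≤ ρ) (_ : c ^ 2 + 14 / 2 ^ l ≤ ρ ^ 4)
    (_ : 8 * (1 / c) ^ 2 / 2 ^ l ≤ δ) (_ : δ ≤ 1) (_ : 0 ≤ WC) (_ : 0 ≤ WA)
    (_ : ∀ h : (Fin k × Fin nA → ZMod 2) × K l, d ≤ mu G h →
      ((univ.filter fun j : Fin k => (sup fun a => h.1 (j, a)).card ≤ K0).card : ℝ) ≤ c1 * k),
    WC * valCN r1 lC + WA * (valA G l1 + valN l1 r1) ≤
      max (WC * Real.sqrt (1 / 2) + 2 * WA) (WC + WA) +
        (WC * (Real.sqrt (8 / 2 ^ l + 2 * ρ + 4 * δ) + 4 * (1 / c) / 2 ^ l + δ) +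
        WA * (8 * (1 / c) ^ 2 / 2 ^ l + 4 * (1 / c) * (d + 1 / d / 2 ^ l + 1 / 2 ^ l) +
          1 / d * (c1 + 1 / 2 ^ K0) + (2 + 6 * (1 / d) ^ 2) / 2 ^ l))

section

variable {nA nB k l : ℕ} [NeZero nA] [NeZero nB]

/-- The trivial bound for a tuple. -/
lemma sum_trip2_triv (WC WA : ℕ) (e : Fin k → Cs nA nB)
    (A : ℕ → Fin (2 * 2 ^ l)) (B : ℕ → Fin (2 ^ l)) :
    (∑ p : Pm nA k l, ls (trip2 WC WA e p) fun c => if satc A B c then (c.w : ℝ) else 0) ≤
      Fintype.card (Pm nA k l) * (WC + 2 * WA) := by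
  have h1 : ∀ p : Pm nA k l, (ls (trip2 WC WA e p) fun c =>
      if satc A B c then (c.w : ℝ) else 0) ≤ WC + 2 * WA := by
    intro p
    rw [← ls_trip2_w WC WA e p]
    refine ls_mono fun c _ => ?_
    split_ifs
    · exact le_rfl
    · exact Nat.cast_nonneg _
  refine (Finset.sum_le_sum fun p _ => h1 p).trans (le_of_eq ?_)
  rw [Finset.sum_const, Finset.card_univ, nsmul_eq_mul]

open Classical in
/-- **Soundness of the game.** -/
theorem gm2_sound (hl : 0 < l) [NeZero k] (hin : Inner2 l k nA) {WC WA : ℕ}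
    {E : PG ℕ ℕ (Fin nA) (Fin nB)}
    (hE : E ≠ []) {η : ℝ} (hs : E.Sound η) (hsur : ∀ c ∈ E, Function.Surjective c.2.2)
    {c d c1 ρ δ γ ε S : ℝ} {K0 : ℕ} (hc0 : 0 < c) (hcl : 1 / 2 ^ l ≤ c) (hd : 1 / 2 ^ l < d)
    (hc1 : 0 < c1) (hρ0 : 0 ≤ ρ) (hρ : c ^ 2 + 14 / 2 ^ l ≤ ρ ^ 4)
    (hδ : 8 * (1 / c) ^ 2 / 2 ^ l ≤ δ) (hδ1 : δ ≤ 1)
    (hγ : 0 < γ) (hγc : γ + 2 * rho nA nB l + Real.sqrt (1 / (c1 * k * rho nA nB l)) ≤
      (d - 1 / 2 ^ l) ^ 2) (hK0 : 0 < K0) (hη : η ≤ ε * (c1 * γ ^ 2 / K0)) (hS0 : 0 ≤ S)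
    (hS : max (WC * Real.sqrt (1 / 2) + 2 * WA) ((WC : ℝ) + WA) +
        (WC * (Real.sqrt (8 / 2 ^ l + 2 * ρ + 4 * δ) + 4 * (1 / c) / 2 ^ l + δ) +
        WA * (8 * (1 / c) ^ 2 / 2 ^ l + 4 * (1 / c) * (d + 1 / d / 2 ^ l + 1 / 2 ^ l) +
          1 / d * (c1 + 1 / 2 ^ K0) + (2 + 6 * (1 / d) ^ 2) / 2 ^ l)) ≤ S * (WC + 2 * WA))
    (A : ℕ → Fin (2 * 2 ^ l)) (B : ℕ → Fin (2 ^ l)) :
    (weight ((gm2 k l WC WA E).filter fun e => e.π (A e.u) = B e.v) : ℝ) ≤
      (S + ε) * weight (gm2 k l WC WA E) := by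
  have h0 : (weight ((gm2 k l WC WA E).filter fun e => e.π (A e.u) = B e.v) : ℝ) =
      weight ((gm2 k l WC WA E).filter fun e => satc A B e) := rfl
  rw [h0, weight_filter_real (gm2 k l WC WA E) (satc A B), ls_gm2, gm2_weight, tup_length,
    ls_tup]
  have hk : 0 < k := Nat.pos_of_ne_zero (NeZero.ne k)
  have hlen : 0 < E.length := List.length_pos_iff.2 hE
  have hP : (0 : ℝ) ≤ Fintype.card (Pm nA k l) := Nat.cast_nonneg _
  have hW : (0 : ℝ) ≤ WC + 2 * WA := by positivity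
  have hd0 : (0 : ℝ) < d := lt_trans (by positivity) hd
  have hp : (0 : ℝ) < c1 * γ ^ 2 / K0 := by
    have : (0 : ℝ) < K0 := by exact_mod_cast hK0
    positivity
  -- one tuple
  have h1 : ∀ f : Fin k → Fin E.length, (∑ p : Pm nA k l, ls (trip2 WC WA (tpl E f) p) fun c =>
      if satc A B c then (c.w : ℝ) else 0) ≤ Fintype.card (Pm nA k l) * (WC + 2 * WA) *
        (S + ind (Good uD vD (tF B) d c1 K0 (tpl E f))) := by
    intro f
    have hsf : ∀ i, Function.Surjective (tpl E f i).2.2 := fun i => hsur _ (List.get_mem _ _)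
    by_cases hg : Good uD vD (tF B) d c1 K0 (tpl E f)
    · rw [ind_true hg]
      refine (sum_trip2_triv WC WA (tpl E f) A B).trans ?_
      refine le_mul_of_one_le_right (mul_nonneg hP hW) ?_
      linarith
    · rw [ind_false hg, add_zero]
      refine (sum_trip2_le hl WC WA (tpl E f) A B).trans ?_
      rw [mul_assoc]
      refine mul_le_mul_of_nonneg_left ?_ hP
      rw [mul_comm ((WC : ℝ) + 2 * WA) S]
      refine le_trans ?_ hS
      refine hin (tG B (tpl E f)) _ _ ?_ _ c d c1 ρ δ WC WA K0 hc0 hcl hd0 hc1.le hρ0 hρ hδ hδ1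
        (Nat.cast_nonneg _) (Nat.cast_nonneg _) ?_
      · intro j w θ0 θ1 u M
        unfold r1B
        rw [red_dis]
      · intro h hmu
        by_contra hcon
        push Not at hcon
        refine hg ⟨h, hmu, fun j => ?_, hcon.le⟩
        exact odd_of_folded (tG B (tpl E f)) (fun j x M => tG_fold hsf j x M)
          (lt_of_lt_of_le hd hmu) j
  refine (Finset.sum_le_sum fun f _ => h1 f).trans ?_
  rw [← Finset.mul_sum, Finset.sum_add_distrib, Finset.sum_const, Finset.card_univ,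
    Fintype.card_fun, Fintype.card_fin, Fintype.card_fin, nsmul_eq_mul]
  have hne : Nonempty (Fin k → Fin E.length) := ⟨fun _ => ⟨0, hlen⟩⟩
  have h2 := avg_good_le (l := l) (k := k) (sU := uD) (sV := vD) (F := tF B) (K0 := K0) E hE hs
    hsur hd.le hc1 hk hγ.le hγc
  have h3 : (avg fun f : Fin k → Fin E.length =>
      ind (Good uD vD (tF B) d c1 K0 (tpl E f))) ≤ ε :=
    le_of_mul_le_mul_right (h2.trans hη) hp
  rw [sum_eq_card_mul_avg, Fintype.card_fun, Fintype.card_fin, Fintype.card_fin]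
  push_cast
  have hn : (0 : ℝ) ≤ (E.length : ℝ) ^ k := by positivity
  have h4 := mul_le_mul_of_nonneg_left h3 hn
  have h5 : (E.length : ℝ) ^ k * S + (E.length : ℝ) ^ k * (avg fun f : Fin k → Fin E.length =>
      ind (Good uD vD (tF B) d c1 K0 (tpl E f))) ≤ (S + ε) * (E.length : ℝ) ^ k := by
    linarith
  have h6 := mul_le_mul_of_nonneg_left h5 (mul_nonneg hP hW)
  refine h6.trans (le_of_eq ?_)
  ring

/-! ### Completeness -/

/-- The left labels. -/
noncomputable def lbL2 (a : ℕ → Fin nA) : LV2 nA nB k l → K l × ZMod 2 :=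
  Sum.elim (fun x => (hon a x.1 x.2.2.2, x.2.2.1 (a (x.1 x.2.1).1)))
    fun x => ((eR l).symm (Phi x.2.2.2.1 x.2.2.2.2.1
      (hon a x.1 x.2.2.2.2.2.1, x.2.2.1 (a (x.1 x.2.1).1))),
      ∑ j, x.2.2.2.2.2.2 (j, a (x.1 j).1))

open Classical in
/-- The labels of named left vertices. -/
noncomputable def hA2 (k l : ℕ) (a : ℕ → Fin nA) (nB : ℕ) (n : ℕ) : Fin (2 * 2 ^ l) :=
  if h : ∃ x : LV2 nA nB k l, nmL2 x = n then eL l (lbL2 a h.choose) else eL l 0

omit [NeZero nA] [NeZero nB] in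
lemma hA2_nm (a : ℕ → Fin nA) (x : LV2 nA nB k l) :
    hA2 k l a nB (nmL2 x) = eL l (lbL2 a x) := by
  have h : ∃ y : LV2 nA nB k l, nmL2 y = nmL2 x := ⟨x, rfl⟩
  unfold hA2
  rw [dif_pos h, nmL2_inj h.choose_spec]

lemma lnC2_complete {a : ℕ → Fin nA} {b : ℕ → Fin nB} {e : Fin k → Cs nA nB}
    (he : ∀ j, (e j).2.2 (a (e j).1) = b (e j).2.1) {x : LV2 nA nB k l}
    {N : Fin k × Fin nA → K l} {φ : K l} {W : ℕ}
    (h : hon a e N = (lbL2 a x).1 + (lbL2 a x).2 • φ) :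
    (lnC2 x e N φ W).π (hA2 k l a nB (lnC2 x e N φ W).u) =
      hB k l a b (lnC2 x e N φ W).v := by
  unfold lnC2 mkM
  dsimp only
  rw [hA2_nm, hB_nm, Equiv.symm_apply_apply]
  unfold lin lbR r0
  rw [Sum.elim_inl, sum_val he, h]

omit [NeZero nA] [NeZero nB] in
/-- The honest labels of the right vertices of the second kind do not see the shifts. -/
lemma Phi_hon_red (hl : 0 < l) (a : ℕ → Fin nA) (e : Fin k → Cs nA nB) (j : Fin k)
    (w : Fin nA → ZMod 2) (θ0 θ1 : K l) (M : Fin k × Fin nA → K l) :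
    Phi θ0 θ1 (hon a e M, w (a (e j).1)) =
      Phi θ0 θ1 (hon a e (red j w θ0 θ1 M), w (a (e j).1)) := by
  obtain ⟨u, hu⟩ := exists_red j w θ0 θ1 M
  have h1 : hon a e M = hon a e (red j w θ0 θ1 M) + u (a (e j).1) •
      (if w (a (e j).1) = 0 then nz θ0 else nz θ1) := by
    conv_lhs => rw [hu]
    unfold hon
    simp only [Pi.add_apply]
    rw [Finset.sum_add_distrib]
    congr 1
    rw [Finset.sum_eq_single j]
    · unfold dis
      dsimp only
      rw [if_pos rfl]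
    · intro i _ hi
      unfold dis
      dsimp only
      rw [if_neg hi]
    · intro h
      exact absurd (Finset.mem_univ j) h
  rw [h1]
  exact Phi_shift hl θ0 θ1 _ _ _

/-- **Completeness of the game.** -/
theorem gm2_complete (hl : 0 < l) {WC WA : ℕ} {E : PG ℕ ℕ (Fin nA) (Fin nB)} {a : ℕ → Fin nA}
    {b : ℕ → Fin nB} (hab : ∀ c ∈ E, c.2.2 (a c.1) = b c.2.1) :
    ∀ c ∈ gm2 k l WC WA E, c.π (hA2 k l a nB c.u) = hB k l a b c.v := by
  intro c hc
  unfold gm2 at hc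
  rw [List.mem_flatMap] at hc
  obtain ⟨e, he, hc⟩ := hc
  have he' : ∀ j, (e j).2.2 (a (e j).1) = b (e j).2.1 := fun j => hab _ (mem_tup he j)
  rw [List.mem_flatMap] at hc
  obtain ⟨⟨j, w, θ0, θ1, y, M, φ⟩, _, hc⟩ := hc
  unfold trip2 at hc
  simp only [List.mem_cons, List.not_mem_nil, or_false] at hc
  rcases hc with rfl | rfl | rfl
  · unfold cnC mkM
    dsimp only
    rw [hA2_nm, hB_nm, Equiv.symm_apply_apply]
    unfold lbL2 lbR
    rw [Sum.elim_inr, Sum.elim_inr]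
    dsimp only
    rw [← Phi_hon_red hl a e j w θ0 θ1 (M + tns y φ), hon_tns]
    unfold cnf
    dsimp only
    rw [Equiv.apply_symm_apply]
    exact Phi_translate hl θ0 θ1 _ (Phi_pre hl θ0 θ1 _)
  · refine lnC2_complete he' ?_
    rw [hon_tns]
    unfold lbL2
    rw [Sum.elim_inl]
    dsimp only
    congr 2
    rw [Finset.sum_eq_single j]
    · unfold atb
      dsimp only
      rw [if_pos rfl]
    · intro i _ hi
      unfold atb
      dsimp only
      rw [if_neg hi]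
    · intro h
      exact absurd (Finset.mem_univ j) h
  · unfold loC2 mkM
    dsimp only
    rw [hA2_nm, hB_nm, Equiv.symm_apply_apply]
    unfold lbL2 lbR
    rw [Sum.elim_inl, Sum.elim_inr]
    exact Phi_hon_red hl a e j w θ0 θ1 M

/-! ### Polynomial time -/

variable {A : Set Word} {α : Type*} [Enc α]

omit [NeZero nA] [NeZero nB] in
lemma PT_nmL2 {f : α → LV2 nA nB k l} (hf : PT A f) : PT A (fun a => nmL2 (f a)) := hf.wcode

lemma PT_lnC2 {x : α → LV2 nA nB k l} {e : α → Fin k → Cs nA nB} (hx : PT A x) (he : PT A e)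
    (N : Fin k × Fin nA → K l) (φ : K l) (W : ℕ) :
    PT A (fun a => raw (lnC2 (x a) (e a) N φ W)) := by
  have h1 : PT A (fun a => nmR (r0 (e a) N)) := by
    unfold r0
    exact PT_nmR (PT.inl (PT.funMk fun j => PT_dsc (PT.funAt he j) (blk j N)))
  have h2 : ∀ a, (List.ofFn fun t : Fin (2 * 2 ^ l) => (mkM (lin φ (off (e a) N)) t : ℕ)) =
      (fun πs : Fin k → Fin nA → Fin nB => List.ofFn fun t : Fin (2 * 2 ^ l) =>
        (mkM (lin φ (∑ j, (dsc ((0, 0, πs j) : Cs nA nB) (blk j N)).2)) t : ℕ))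
        (fun j => (e a j).2.2) := by
    intro a
    dsimp only
    unfold off
    simp only [← dsc_snd]
  have h3 : PT A (fun a => List.ofFn fun t : Fin (2 * 2 ^ l) =>
      (mkM (lin φ (off (e a) N)) t : ℕ)) := by
    refine PT.congr ?_ fun a => (h2 a).symm
    refine PT.finComp (fun πs : Fin k → Fin nA → Fin nB => List.ofFn fun t : Fin (2 * 2 ^ l) =>
        (mkM (lin φ (∑ j, (dsc ((0, 0, πs j) : Cs nA nB) (blk j N)).2)) t : ℕ)) ?_
    exact PT.funMk fun j => (PT.funAt he j).snd.snd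
  unfold raw lnC2
  exact (PT_nmL2 hx).pair (h1.pair (h3.pair (PT.const _)))

lemma PT_trip2 {e : α → Fin k → Cs nA nB} (he : PT A e) (WC WA : ℕ) (p : Pm nA k l) :
    PT A (fun a => (trip2 WC WA (e a) p).map raw) := by
  obtain ⟨j, w, θ0, θ1, y, M, φ⟩ := p
  unfold trip2
  simp only [List.map_cons, List.map_nil]
  refine PT.cons ?_ (PT.cons (PT_lnC2 (PT.inl (he.pair (PT.const _))) he _ _ _)
    (PT.cons ?_ PT.nil))
  · have h1 : PT A (fun _ : α => ((List.ofFn fun t : Fin (2 * 2 ^ l) =>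
        (mkM (cnf θ0 θ1 φ) t : ℕ), WC) : List ℕ × ℕ)) := PT.const _
    unfold raw cnC
    exact (PT_nmL2 (PT.inr (he.pair (PT.const _)))).pair
      ((PT_nmR (PT.inr (he.pair (PT.const _)))).pair h1)
  · have h1 : PT A (fun _ : α => ((List.ofFn fun t : Fin (2 * 2 ^ l) =>
        (mkM (Phi θ0 θ1) t : ℕ), WA) : List ℕ × ℕ)) := PT.const _
    unfold raw loC2
    exact (PT_nmL2 (PT.inl (he.pair (PT.const _)))).pair
      ((PT_nmR (PT.inr (he.pair (PT.const _)))).pair h1)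

lemma PT_gm2 {E : α → PG ℕ ℕ (Fin nA) (Fin nB)} (hE : PT A E) (WC WA : ℕ) :
    PT A (fun a => (gm2 k l WC WA (E a)).map raw) := by
  have h1 : ∀ a, (gm2 k l WC WA (E a)).map raw = (tup (E a) k).flatMap fun e =>
      (Finset.univ : Finset (Pm nA k l)).toList.flatMap fun p =>
        (trip2 WC WA e p).map raw := by
    intro a
    unfold gm2
    simp only [List.map_flatMap]
  simp only [h1]
  exact PT.flatMap (f := fun (_ : α) (e : Fin k → Cs nA nB) =>
    (Finset.univ : Finset (Pm nA k l)).toList.flatMap fun p => (trip2 WC WA e p).map raw)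
    (PT_tup hE k) (PT.flatMapConst _ fun p _ => PT_trip2 PT.snd' WC WA p)

end

end Vale.Agent.P339.R2.H95
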